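import Vale.Agent.P134K.Ch2
import Vale.Agent.P134U.Defs

/-!
# P134K: the discs of a leaf
-/

open MeasureTheory Metric Set Filter Topology
open scoped ContDiff RealInnerProductSpace Gradient

noncomputable section
namespace Vale.Agent.P134K

open Vale.Agent.P134L (Leaf)
open Vale.Agent.P134U (Ok0)

variable {m : ℕ} {M : Type} [MetricSpace M] [MeasurableSpace M] {L : Leaf m M}

theorem ok_h0 (h : Ok0 L) (p : M) : L.h p 0 = 0 := by
  have h1 := h.xφ p 0 (mem_ball_self four_pos)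
  rw [h.φ0, map_zero, add_zero, left_eq_add, smul_eq_zero] at h1
  exact h1.resolve_right fun k => by simpa [k] using h.N1 p

theorem ok_g0 (h : Ok0 L) (p : M) : ∇ (L.h p) 0 = 0 := by
  have h1 := congrArg (fun w => ⟪w, L.L p (∇ (L.h p) 0)⟫) (h.Nφ p 0 (mem_ball_self four_pos))
  simp only [h.φ0, inner_smul_left, h.NL, mul_zero, inner_sub_left, zero_sub,
    LinearIsometry.inner_map_map] at h1
  exact inner_self_eq_zero.1 (neg_eq_zero.1 h1.symm)

/-- the discs of a leaf -/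
def disc (h : Ok0 L) : Disc m M where
  X := L.x
  N := L.N
  L := L.L
  h := L.h
  φ := L.φ
  N1 := h.N1
  NL := h.NL
  sm := h.hs
  h0 := ok_h0 h
  d0 p := by
    have := congrArg (InnerProductSpace.toDual ℝ (E m)) (ok_g0 h p)
    rwa [gradient, LinearIsometryEquiv.apply_symm_apply, map_zero] at this
  φ0 := h.φ0
  Xφ := h.xφ
  Nφ p y hy := by
    rw [← h.Nφ p y hy, smul_smul, inv_mul_cancel₀ (by positivity), one_smul]
  lip := h.dφ
  cov p q hq := h.onto p q hq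
  Xl p q := h.dx q p
  mn := h.mn

theorem geo_δ (h : Ok0 L) : L.geo.δ = (disc h).δ := by
  funext i f p
  have := (disc h).inner_Ls p (EuclideanSpace.single i 1) (∇ (f ∘ L.φ p) 0)
  rw [EuclideanSpace.inner_single_left, real_inner_comm, inner_grad] at this
  simp only [conj_trivial, one_mul] at this
  exact this.symm

theorem geo_A (h : Ok0 L) : L.geo.A = (disc h).A := by
  funext i j p
  rw [P134L.Geo.A, geo_δ h]
  rfl

theorem geo_lap (h : Ok0 L) : L.geo.Lap = (disc h).lap := by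
  funext f p
  rw [P134L.Geo.Lap, geo_δ h]
  rfl

theorem sm_to (h : Ok0 L) {f : M → ℝ} {p : M} (hf : L.geo.Sm f p) :
    ∀ᶠ q in 𝓝 p, (disc h).Sm f q := by
  obtain ⟨g, h1, h2⟩ := hf
  filter_upwards [(disc h).cont_X.continuousAt.eventually h1, h2.eventually_nhds] with q k1 k2
  exact (Disc.sm_amb k1).congr k2

theorem sm_of (h : Ok0 L) {f : M → ℝ} {p q : M} (hq : q ∈ ball p 2)
    (hf : ∀ᶠ z in 𝓝 ((disc h).ψ p q), ContDiffAt ℝ ∞ (f ∘ L.φ p) z) : L.geo.Sm f q := by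
  have c : ContDiff ℝ ∞ fun w => (disc h).Ls p (w - L.x p) :=
    ((disc h).Ls p).contDiff.comp (contDiff_id.sub contDiff_const)
  refine ⟨fun w => (f ∘ L.φ p) ((disc h).Ls p (w - L.x p)), ?_, ?_⟩
  · filter_upwards [c.continuous.continuousAt.eventually hf] with w hw
    exact ContDiffAt.comp (g := f ∘ L.φ p) w hw c.contDiffAt
  · filter_upwards [isOpen_ball.mem_nhds hq] with x hx
    exact congrArg f ((disc h).φ_ψ hx).symm

theorem sm_iff (h : Ok0 L) {f : M → ℝ} {p : M} :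
    L.geo.Sm f p ↔ ∀ᶠ q in 𝓝 p, (disc h).Sm f q := by
  refine ⟨sm_to h, fun k => sm_of h (mem_ball_self two_pos) ?_⟩
  rw [Disc.ψ_self]
  filter_upwards [((disc h).tend_φ p).eventually k, isOpen_ball.mem_nhds Disc.z1] with z h1 h2
  exact h1.chart h2

namespace Disc

omit [MeasurableSpace M]

variable (D : Disc m M)

theorem norm_Ls (p : M) (w : E (m + 1)) : ‖D.Ls p w‖ ≤ ‖w‖ := by
  have h1 := D.inner_Ls p w (D.Ls p w)
  rw [real_inner_self_eq_norm_sq] at h1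
  have h2 := real_inner_le_norm w (D.L p (D.Ls p w))
  rw [LinearIsometry.norm_map] at h2
  by_contra k
  nlinarith [norm_nonneg w, not_le.1 k]

theorem ψ_lip (p x y : M) : ‖D.ψ p x - D.ψ p y‖ ≤ ‖D.X x - D.X y‖ := by
  rw [ψ, ψ, ← map_sub, sub_sub_sub_cancel_right]
  exact D.norm_Ls p _

theorem norm_ψ (p x : M) : ‖D.ψ p x‖ ≤ ‖D.X x - D.X p‖ := D.norm_Ls p _

theorem φ_inj {p : M} {y z : E m} (hy : y ∈ ball (0 : E m) 4) (hz : z ∈ ball (0 : E m) 4) :
    ‖y - z‖ ≤ dist (D.φ p y) (D.φ p z) := by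
  conv_lhs => rw [← D.ψ_φ (p := p) hy, ← D.ψ_φ (p := p) hz]
  exact (D.ψ_lip p _ _).trans (D.Xl _ _)

theorem dist_φ (p : M) {y : E m} (hy : y ∈ ball (0 : E m) 4) : dist (D.φ p y) p ≤ 2 * ‖y‖ := by
  simpa [D.φ0] using D.lip p y hy 0 z1

theorem ball_V (p : M) : ball 0 1 ⊆ D.V p := fun y hy => by
  have h1 : y ∈ ball (0 : E m) 4 := ball_subset_ball (by norm_num) hy
  refine ⟨h1, (D.dist_φ p h1).trans_lt ?_⟩
  linarith [mem_ball_zero_iff.1 hy]

theorem map_φ {p : M} {y : E m} (hy : y ∈ D.V p) : map (D.φ p) (𝓝 y) = 𝓝 (D.φ p y) := by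
  refine le_antisymm (D.contAt_φ hy.1) fun s hs => ?_
  have h1 : ∀ᶠ x in 𝓝 (D.φ p y), D.φ p (D.ψ p x) ∈ s :=
    (D.cont_ψ p).continuousAt.eventually (p := fun z => D.φ p z ∈ s) (by rwa [D.ψ_φ hy.1])
  filter_upwards [h1, isOpen_ball.mem_nhds hy.2] with x h2 h3
  rwa [D.φ_ψ h3] at h2

theorem Ls_Nφ (p : M) {y : E m} (hy : y ∈ ball (0 : E m) 4) :
    D.Ls p (D.N (D.φ p y)) = -((√(1 + ‖∇ (D.h p) y‖ ^ 2))⁻¹ • ∇ (D.h p) y) := by
  rw [D.Nφ p y hy, map_smul, map_sub, Ls_N, Ls_L, zero_sub, smul_neg]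

/-- the derivative of the parametrisation -/
theorem d_Xφ' (p : M) {y : E m} (hy : y ∈ ball (0 : E m) 4) : HasFDerivAt (D.X ∘ D.φ p)
    ((D.L p).toContinuousLinearMap + (fderiv ℝ (D.h p) y).smulRight (D.N p)) y :=
  ((((D.L p).toContinuousLinearMap.hasFDerivAt (x := y)).const_add (D.X p)).add
    (((D.smAt_h p hy).differentiableAt (by simp)).hasFDerivAt.smul_const
      (D.N p))).congr_of_eventuallyEq (D.Xφ_ev p hy)

end Disc

end Vale.Agent.P134K
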