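import Vale.Agent.P134K.Draft

open MeasureTheory Metric Set Filter Topology
open scoped ContDiff RealInnerProductSpace Gradient

noncomputable section
namespace Vale.Agent.P134K

variable {m : ℕ} {M : Type} [MetricSpace M] (D : Disc m M)

namespace Disc

def Ls (p : M) : E (m + 1) →L[ℝ] E m := ContinuousLinearMap.adjoint (D.L p).toContinuousLinearMap

def a (p : M) (i : Fin (m + 1)) : E m := D.Ls p (EuclideanSpace.single i 1)

def ψ (p x : M) : E m := D.Ls p (D.X x - D.X p)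

def δ (i : Fin (m + 1)) (f : M → ℝ) (p : M) : ℝ := fderiv ℝ (f ∘ D.φ p) 0 (D.a p i)

def Sm (f : M → ℝ) (p : M) : Prop := ContDiffAt ℝ ∞ (f ∘ D.φ p) 0

def lap (f : M → ℝ) (p : M) : ℝ := ∑ i, D.δ i (D.δ i f) p

def V (p : M) : Set (E m) := ball 0 4 ∩ D.φ p ⁻¹' ball p 2

theorem inner_Ls (p : M) (v : E (m + 1)) (y : E m) : ⟪D.Ls p v, y⟫ = ⟪v, D.L p y⟫ := by
  rw [Ls, ContinuousLinearMap.adjoint_inner_left]
  rfl

theorem Ls_L (p : M) (y : E m) : D.Ls p (D.L p y) = y :=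
  ext_inner_right ℝ fun z => by rw [inner_Ls, LinearIsometry.inner_map_map]

theorem Ls_N (p : M) : D.Ls p (D.N p) = 0 :=
  ext_inner_right ℝ fun z => by rw [inner_Ls, D.NL, inner_zero_left]

theorem NN (p : M) : ⟪D.N p, D.N p⟫ = 1 := by
  rw [real_inner_self_eq_norm_sq, D.N1, one_pow]

theorem L_Ls (p : M) (v : E (m + 1)) : D.L p (D.Ls p v) = v - ⟪D.N p, v⟫ • D.N p := by
  have n0 : D.N p ≠ 0 := fun k => by simpa [k] using D.N1 p
  have h1 : LinearMap.range (D.L p).toLinearMap ≤ (ℝ ∙ D.N p)ᗮ := by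
    rintro _ ⟨y, rfl⟩
    exact Submodule.mem_orthogonal_singleton_iff_inner_right.2 (D.NL p y)
  have h2 : LinearMap.range (D.L p).toLinearMap = (ℝ ∙ D.N p)ᗮ := by
    refine Submodule.eq_of_le_of_finrank_eq h1 ?_
    rw [LinearMap.finrank_range_of_inj (D.L p).injective]
    have := Submodule.finrank_add_finrank_orthogonal (ℝ ∙ D.N p)
    rw [finrank_span_singleton n0] at this
    simp only [finrank_euclideanSpace, Fintype.card_fin] at this ⊢
    omega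
  have h3 : v - ⟪D.N p, v⟫ • D.N p ∈ (ℝ ∙ D.N p)ᗮ :=
    Submodule.mem_orthogonal_singleton_iff_inner_right.2 (by
      rw [inner_sub_right, inner_smul_right, NN, mul_one, sub_self])
  rw [← h2] at h3
  obtain ⟨y, hy⟩ := h3
  have h4 : D.L p y = v - ⟪D.N p, v⟫ • D.N p := hy
  have h5 : D.Ls p v = y := by
    rw [← D.Ls_L p y, h4, map_sub, map_smul, Ls_N, smul_zero, sub_zero]
  rw [h5, h4]

theorem ψ_φ {p : M} {y : E m} (hy : y ∈ ball (0 : E m) 4) : D.ψ p (D.φ p y) = y := by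
  rw [ψ, D.Xφ p y hy, add_assoc, add_sub_cancel_left, map_add, map_smul, Ls_L, Ls_N, smul_zero,
    add_zero]

theorem ψ_self (p : M) : D.ψ p p = 0 := by rw [ψ, sub_self, map_zero]

theorem φ_ψ {p x : M} (hx : x ∈ ball p 2) : D.φ p (D.ψ p x) = x := by
  obtain ⟨y, hy, rfl⟩ := D.cov p hx
  rw [D.ψ_φ hy]

theorem ψ_mem {p x : M} (hx : x ∈ ball p 2) : D.ψ p x ∈ D.V p := by
  refine ⟨?_, by rwa [mem_preimage, D.φ_ψ hx]⟩
  obtain ⟨y, hy, rfl⟩ := D.cov p hx
  rwa [D.ψ_φ hy]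

theorem cont_X : Continuous D.X :=
  (LipschitzWith.of_dist_le_mul (K := 1) fun p q => by
    simpa [dist_eq_norm] using D.Xl p q).continuous

theorem cont_ψ (p : M) : Continuous (D.ψ p) :=
  (D.Ls p).continuous.comp (D.cont_X.sub continuous_const)

theorem contOn_φ (p : M) : ContinuousOn (D.φ p) (ball 0 4) :=
  (LipschitzOnWith.of_dist_le_mul (K := 2) fun y hy z hz => by
    simpa [dist_eq_norm] using D.lip p y hy z hz).continuousOn

theorem contAt_φ {p : M} {y : E m} (hy : y ∈ ball (0 : E m) 4) : ContinuousAt (D.φ p) y :=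
  (D.contOn_φ p).continuousAt (isOpen_ball.mem_nhds hy)

theorem open_V (p : M) : IsOpen (D.V p) :=
  (D.contOn_φ p).isOpen_inter_preimage isOpen_ball isOpen_ball

theorem z1 : (0 : E m) ∈ ball (0 : E m) 4 := mem_ball_self four_pos

theorem zero_V (p : M) : 0 ∈ D.V p :=
  ⟨z1, by rw [mem_preimage, D.φ0]; exact mem_ball_self (by norm_num)⟩

theorem smAt_h (p : M) {y : E m} (hy : y ∈ ball (0 : E m) 4) : ContDiffAt ℝ ∞ (D.h p) y :=
  (D.sm p).contDiffAt (isOpen_ball.mem_nhds hy)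

theorem Xφ_ev (p : M) {y : E m} (hy : y ∈ ball (0 : E m) 4) :
    D.X ∘ D.φ p =ᶠ[𝓝 y] fun z => D.X p + D.L p z + D.h p z • D.N p := by
  filter_upwards [isOpen_ball.mem_nhds hy] with z hz using D.Xφ p z hz

theorem sm_Xφ (p : M) {y : E m} (hy : y ∈ ball (0 : E m) 4) :
    ContDiffAt ℝ ∞ (D.X ∘ D.φ p) y :=
  ((contDiffAt_const.add (D.L p).toContinuousLinearMap.contDiff.contDiffAt).add
    ((D.smAt_h p hy).smul contDiffAt_const)).congr_of_eventuallyEq (D.Xφ_ev p hy)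

theorem d_Xφ (p : M) : HasFDerivAt (D.X ∘ D.φ p) (D.L p).toContinuousLinearMap 0 := by
  have h1 : HasFDerivAt (D.h p) (0 : E m →L[ℝ] ℝ) 0 := by
    rw [← D.d0 p]
    exact ((D.smAt_h p z1).differentiableAt (by simp)).hasFDerivAt
  have h2 := ((D.L p).toContinuousLinearMap.hasFDerivAt (x := 0)).const_add (D.X p) |>.add
    (h1.smul_const (D.N p))
  refine (h2.congr_fderiv ?_).congr_of_eventuallyEq (D.Xφ_ev p z1)
  ext y i
  simp

theorem sm_grad (p : M) {y : E m} (hy : y ∈ ball (0 : E m) 4) :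
    ContDiffAt ℝ ∞ (∇ (D.h p)) y :=
  (InnerProductSpace.toDual ℝ (E m)).symm.contDiff.contDiffAt.comp y
    ((D.smAt_h p hy).fderiv_right (m := ∞) (by simp))

theorem sm_Nφ (p : M) {y : E m} (hy : y ∈ ball (0 : E m) 4) :
    ContDiffAt ℝ ∞ (D.N ∘ D.φ p) y := by
  have g := D.sm_grad p hy
  have h1 : ContDiffAt ℝ ∞ (fun z => 1 + ‖∇ (D.h p) z‖ ^ 2) y :=
    contDiffAt_const.add (g.norm_sq ℝ)
  have h2 := (h1.sqrt (by positivity)).inv (by positivity)
  refine (h2.smul (contDiffAt_const.sub ((D.L p).toContinuousLinearMap.contDiff.contDiffAt.comp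
    y g) (f := fun _ => D.N p))).congr_of_eventuallyEq ?_
  filter_upwards [isOpen_ball.mem_nhds hy] with z hz using D.Nφ p z hz

/-- the change of charts -/
theorem sm_T (p q : M) {y : E m} (hy : y ∈ ball (0 : E m) 4) :
    ContDiffAt ℝ ∞ (D.ψ q ∘ D.φ p) y :=
  (D.Ls q).contDiff.contDiffAt.comp y ((D.sm_Xφ p hy).sub contDiffAt_const)

theorem d_T (p q : M) : HasFDerivAt (D.ψ q ∘ D.φ p)
    ((D.Ls q).comp (D.L p).toContinuousLinearMap) 0 :=
  (D.Ls q).hasFDerivAt.comp 0 ((D.d_Xφ p).sub_const (D.X q))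

theorem chg {α : Type} (f : M → α) {p q : M} {y : E m} (hy : y ∈ ball (0 : E m) 4)
    (hq : D.φ p y ∈ ball q 2) : f ∘ D.φ p =ᶠ[𝓝 y] (f ∘ D.φ q) ∘ (D.ψ q ∘ D.φ p) := by
  filter_upwards [(D.contAt_φ hy).preimage_mem_nhds (isOpen_ball.mem_nhds hq)] with z hz
  simp only [Function.comp, D.φ_ψ hz]

variable {D}

theorem Sm.chart {f : M → ℝ} {p : M} {y : E m} (hy : y ∈ ball (0 : E m) 4)
    (hf : D.Sm f (D.φ p y)) : ContDiffAt ℝ ∞ (f ∘ D.φ p) y := by
  refine ContDiffAt.congr_of_eventuallyEq (ContDiffAt.comp y ?_ (D.sm_T p (D.φ p y) hy))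
    (D.chg f hy (mem_ball_self (by norm_num)))
  rwa [Function.comp, ψ_self]

theorem sm_of_chart {f : M → ℝ} {p x : M} (hx : x ∈ ball p 2)
    (hf : ContDiffAt ℝ ∞ (f ∘ D.φ p) (D.ψ p x)) : D.Sm f x := by
  refine ContDiffAt.congr_of_eventuallyEq (ContDiffAt.comp 0 ?_ (D.sm_T x p z1))
    (D.chg f z1 (by rwa [D.φ0]))
  rwa [Function.comp, D.φ0]

/-- the fields which represent `δ i` in the chart at `p` -/
def v (D : Disc m M) (p : M) (i : Fin (m + 1)) (y : E m) : E m :=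
  D.a p i - D.N (D.φ p y) i • D.Ls p (D.N (D.φ p y))

theorem δ_chart {f : M → ℝ} {p x : M} (hx : x ∈ ball p 2)
    (hf : DifferentiableAt ℝ (f ∘ D.φ p) (D.ψ p x)) (i : Fin (m + 1)) :
    D.δ i f x = fderiv ℝ (f ∘ D.φ p) (D.ψ p x) (D.v p i (D.ψ p x)) := by
  have h1 : HasFDerivAt (f ∘ D.φ p) (fderiv ℝ (f ∘ D.φ p) (D.ψ p x)) ((D.ψ p ∘ D.φ x) 0) := by
    rw [Function.comp_apply, D.φ0]
    exact hf.hasFDerivAt
  have h2 := (h1.comp 0 (D.d_T x p)).congr_of_eventuallyEq (D.chg f z1 (by rwa [D.φ0]))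
  rw [δ, h2.fderiv, v, D.φ_ψ hx]
  simp only [ContinuousLinearMap.comp_apply, a]
  congr 1
  change D.Ls p (D.L x _) = _
  rw [L_Ls, map_sub, map_smul, EuclideanSpace.inner_single_right]
  simp

end Disc

end Vale.Agent.P134K
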