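import Vale.Agent.P134K.Ch0

open MeasureTheory Metric Set Filter Topology
open scoped ContDiff RealInnerProductSpace Gradient

noncomputable section
namespace Vale.Agent.P134K

variable {m : ℕ} {M : Type} [MetricSpace M] {D : Disc m M}

namespace Disc

variable {f g : M → ℝ} {p : M} {i j k l : Fin (m + 1)}

theorem tend_φ (D : Disc m M) (p : M) : Tendsto (D.φ p) (𝓝 0) (𝓝 p) := by
  simpa only [ContinuousAt, D.φ0] using D.contAt_φ (p := p) z1

theorem Sm.diff (hf : D.Sm f p) : DifferentiableAt ℝ (f ∘ D.φ p) 0 :=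
  ContDiffAt.differentiableAt hf (by simp)

theorem Sm.congr (hf : D.Sm f p) (h : g =ᶠ[𝓝 p] f) : D.Sm g p :=
  ContDiffAt.congr_of_eventuallyEq hf ((D.tend_φ p).eventually h)

theorem δ_congr (h : g =ᶠ[𝓝 p] f) : D.δ i g p = D.δ i f p := by
  have : g ∘ D.φ p =ᶠ[𝓝 0] f ∘ D.φ p := (D.tend_φ p).eventually h
  rw [δ, δ, this.fderiv_eq]

theorem Sm.cont (hf : D.Sm f p) : ContinuousAt f p := by
  have h1 : ContinuousAt (f ∘ D.φ p) (D.ψ p p) := by
    rw [ψ_self]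
    exact ContDiffAt.continuousAt hf
  refine (h1.comp (D.cont_ψ p).continuousAt).congr ?_
  filter_upwards [ball_mem_nhds p (show (0 : ℝ) < 2 by norm_num)] with x hx
  simp only [Function.comp, D.φ_ψ hx]

theorem sm_v (D : Disc m M) (p : M) (i : Fin (m + 1)) {y : E m} (hy : y ∈ ball (0 : E m) 4) :
    ContDiffAt ℝ ∞ (D.v p i) y :=
  contDiffAt_const.sub (((EuclideanSpace.proj i : E (m + 1) →L[ℝ] ℝ).contDiff.contDiffAt.comp y
    (D.sm_Nφ p hy)).smul ((D.Ls p).contDiff.contDiffAt.comp y (D.sm_Nφ p hy)))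

theorem v_zero (D : Disc m M) (p : M) (i : Fin (m + 1)) : D.v p i 0 = D.a p i := by
  rw [v, D.φ0, Ls_N, smul_zero, sub_zero]

theorem δ_φ {y : E m} (hy : y ∈ D.V p) (hf : DifferentiableAt ℝ (f ∘ D.φ p) y) :
    D.δ i f (D.φ p y) = fderiv ℝ (f ∘ D.φ p) y (D.v p i y) := by
  have := δ_chart (D := D) (f := f) hy.2 (by rwa [D.ψ_φ hy.1]) i
  rwa [D.ψ_φ hy.1] at this

theorem δ_ev {y : E m} (hy : y ∈ D.V p) (hf : ContDiffAt ℝ ∞ (f ∘ D.φ p) y) :
    D.δ i f ∘ D.φ p =ᶠ[𝓝 y] fun z => fderiv ℝ (f ∘ D.φ p) z (D.v p i z) := by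
  filter_upwards [(D.open_V p).mem_nhds hy, (hf.of_le (m := 1) (by simp)).eventually (by simp)]
    with z h1 h2
  exact δ_φ h1 (h2.differentiableAt one_ne_zero)

theorem Sm.δ (hf : D.Sm f p) (i : Fin (m + 1)) : D.Sm (D.δ i f) p :=
  ((ContDiffAt.fderiv_right hf (m := ∞) (by simp)).clm_apply
    (D.sm_v p i z1)).congr_of_eventuallyEq (δ_ev (D.zero_V p) hf)

theorem sm_const (c : ℝ) : D.Sm (fun _ => c) p := contDiffAt_const

theorem Sm.add (hf : D.Sm f p) (hg : D.Sm g p) : D.Sm (fun x => f x + g x) p :=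
  ContDiffAt.add hf hg

theorem Sm.sub (hf : D.Sm f p) (hg : D.Sm g p) : D.Sm (fun x => f x - g x) p :=
  ContDiffAt.sub hf hg

theorem Sm.mul (hf : D.Sm f p) (hg : D.Sm g p) : D.Sm (fun x => f x * g x) p :=
  ContDiffAt.mul hf hg

theorem Sm.comp {G : ℝ → ℝ} (hf : D.Sm f p) (hG : ContDiffAt ℝ ∞ G (f p)) :
    D.Sm (fun x => G (f x)) p :=
  ContDiffAt.comp 0 (g := G) (f := f ∘ D.φ p) (by rwa [Function.comp_apply, D.φ0]) hf

theorem sm_amb {G : E (m + 1) → ℝ} (hG : ContDiffAt ℝ ∞ G (D.X p)) :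
    D.Sm (fun x => G (D.X x)) p :=
  ContDiffAt.comp 0 (g := G) (f := D.X ∘ D.φ p) (by rwa [Function.comp_apply, D.φ0])
    (D.sm_Xφ p z1)

theorem sm_X : D.Sm (fun x => D.X x i) p :=
  (EuclideanSpace.proj i : E (m + 1) →L[ℝ] ℝ).contDiff.contDiffAt.comp 0 (D.sm_Xφ p z1)

theorem sm_N : D.Sm (fun x => D.N x i) p :=
  (EuclideanSpace.proj i : E (m + 1) →L[ℝ] ℝ).contDiff.contDiffAt.comp 0 (D.sm_Nφ p z1)

theorem δ_const (c : ℝ) : D.δ i (fun _ => c) p = 0 := by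
  rw [δ, show (fun _ => c) ∘ D.φ p = fun _ => c from rfl, fderiv_fun_const]
  rfl

theorem δ_add (hf : D.Sm f p) (hg : D.Sm g p) :
    D.δ i (fun x => f x + g x) p = D.δ i f p + D.δ i g p :=
  congrArg (fun T : E m →L[ℝ] ℝ => T (D.a p i)) (fderiv_add hf.diff hg.diff)

theorem δ_sub (hf : D.Sm f p) (hg : D.Sm g p) :
    D.δ i (fun x => f x - g x) p = D.δ i f p - D.δ i g p :=
  congrArg (fun T : E m →L[ℝ] ℝ => T (D.a p i)) (fderiv_sub hf.diff hg.diff)

theorem δ_mul (hf : D.Sm f p) (hg : D.Sm g p) :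
    D.δ i (fun x => f x * g x) p = f p * D.δ i g p + g p * D.δ i f p := by
  have := congrArg (fun T : E m →L[ℝ] ℝ => T (D.a p i)) (fderiv_mul hf.diff hg.diff)
  simp only [Function.comp_apply, D.φ0] at this
  exact this

theorem δ_comp {G : ℝ → ℝ} {G' : ℝ} (hf : D.Sm f p) (hG : HasDerivAt G G' (f p)) :
    D.δ i (fun x => G (f x)) p = G' * D.δ i f p := by
  have h1 : HasDerivAt G G' ((f ∘ D.φ p) 0) := by rwa [Function.comp, D.φ0]
  exact congrArg (fun T : E m →L[ℝ] ℝ => T (D.a p i))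
    (h1.comp_hasFDerivAt 0 hf.diff.hasFDerivAt).fderiv

theorem δ_amb {G : E (m + 1) → ℝ} (hG : DifferentiableAt ℝ G (D.X p)) :
    D.δ i (fun x => G (D.X x)) p =
      fderiv ℝ G (D.X p) (EuclideanSpace.single i 1 - D.N p i • D.N p) := by
  have h1 : HasFDerivAt G (fderiv ℝ G (D.X p)) ((D.X ∘ D.φ p) 0) := by
    rw [Function.comp, D.φ0]
    exact hG.hasFDerivAt
  refine (congrArg (fun T : E m →L[ℝ] ℝ => T (D.a p i)) (h1.comp 0 (D.d_Xφ p)).fderiv).trans ?_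
  change fderiv ℝ G (D.X p) (D.L p (D.Ls p _)) = _
  rw [L_Ls, EuclideanSpace.inner_single_right]
  simp

theorem δ_X : D.δ i (fun x => D.X x j) p = (if i = j then 1 else 0) - D.N p i * D.N p j := by
  refine (δ_amb (EuclideanSpace.proj j : E (m + 1) →L[ℝ] ℝ).differentiableAt).trans ?_
  rw [ContinuousLinearMap.fderiv]
  simp [eq_comm]

theorem sum_a (D : Disc m M) (p : M) (w : E (m + 1)) : ∑ i, w i • D.a p i = D.Ls p w := by
  conv_rhs => rw [← (EuclideanSpace.basisFun (Fin (m + 1)) ℝ).sum_repr w]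
  simp [a]

theorem sum_δ (w : E (m + 1)) : ∑ i, w i * D.δ i f p = fderiv ℝ (f ∘ D.φ p) 0 (D.Ls p w) := by
  rw [← sum_a, map_sum]
  simp only [map_smul, δ, smul_eq_mul]

theorem N_δ : ∑ i, D.N p i * D.δ i f p = 0 := by rw [sum_δ, Ls_N, map_zero]

/-- the second fundamental form, up to the sign -/
def A (D : Disc m M) (k l : Fin (m + 1)) (p : M) : ℝ := D.δ k (fun x => D.N x l) p

theorem A_eq : D.A k l p = fderiv ℝ (D.N ∘ D.φ p) 0 (D.a p k) l :=
  congrArg (fun T : E m →L[ℝ] ℝ => T (D.a p k))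
    ((EuclideanSpace.proj l : E (m + 1) →L[ℝ] ℝ).hasFDerivAt.comp 0
      ((D.sm_Nφ p z1).differentiableAt (by simp)).hasFDerivAt).fderiv

theorem d_v : fderiv ℝ (D.v p i) 0 (D.a p k) = -(D.N p i • ∑ l, D.A k l p • D.a p l) := by
  have h1 := ((D.sm_Nφ p z1).differentiableAt (by simp)).hasFDerivAt
  have h2 := (((EuclideanSpace.proj i : E (m + 1) →L[ℝ] ℝ).hasFDerivAt.comp 0 h1).smul
    ((D.Ls p).hasFDerivAt.comp 0 h1)).const_sub (D.a p i)
  rw [show fderiv ℝ (D.v p i) 0 = _ from h2.fderiv]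
  simp only [A_eq, sum_a]
  simp [D.φ0, Ls_N]

theorem δδ (hf : D.Sm f p) : D.δ k (D.δ i f) p =
    fderiv ℝ (fderiv ℝ (f ∘ D.φ p)) 0 (D.a p k) (D.a p i) -
      D.N p i * ∑ l, D.A k l p * D.δ l f p := by
  have h1 := ((ContDiffAt.fderiv_right hf (m := ∞) (by simp)).differentiableAt
    (by simp)).hasFDerivAt
  have h2 := ((D.sm_v p i z1).differentiableAt (by simp)).hasFDerivAt
  rw [δ, ((h1.clm_apply h2).congr_of_eventuallyEq (δ_ev (D.zero_V p) hf)).fderiv]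
  simp only [add_apply, ContinuousLinearMap.comp_apply, d_v,
    ContinuousLinearMap.flip_apply, v_zero, map_neg, map_smul, map_sum, smul_eq_mul, δ]
  ring

/-- the commutator -/
theorem comm (hf : D.Sm f p) : D.δ k (D.δ i f) p - D.δ i (D.δ k f) p =
    D.N p k * ∑ l, D.A i l p * D.δ l f p - D.N p i * ∑ l, D.A k l p * D.δ l f p := by
  rw [δδ hf, δδ hf, (ContDiffAt.isSymmSndFDerivAt hf (by simp only [minSmoothness_of_isRCLikeNormedField]; exact WithTop.coe_le_coe.2 le_top)).eq (D.a p k) (D.a p i)]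
  ring

theorem a_app (D : Disc m M) (p : M) (i : Fin (m + 1)) (b : Fin m) :
    D.a p i b = D.L p (EuclideanSpace.single b 1) i := by
  have := D.inner_Ls p (EuclideanSpace.single i 1) (EuclideanSpace.single b 1)
  simpa [EuclideanSpace.inner_single_right, EuclideanSpace.inner_single_left, a] using this

theorem sum_aa (D : Disc m M) (p : M) (B : E m →L[ℝ] E m →L[ℝ] ℝ) :
    ∑ i, B (D.a p i) (D.a p i) =
      ∑ b, B (EuclideanSpace.single b 1) (EuclideanSpace.single b 1) := by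
  have h1 : ∀ i, B (D.a p i) (D.a p i) =
      ∑ b, D.L p (EuclideanSpace.single b 1) i • B (EuclideanSpace.single b 1) (D.a p i) := by
    intro i
    conv_lhs => enter [1, 2]; rw [← (EuclideanSpace.basisFun (Fin m) ℝ).sum_repr (D.a p i)]
    simp [a_app]
  simp only [h1]
  rw [Finset.sum_comm]
  refine Finset.sum_congr rfl fun b _ => ?_
  simp only [← map_smul]
  rw [← map_sum, sum_a, Ls_L]

theorem lap_ctr (hf : D.Sm f p) : D.lap f p = ∑ b, fderiv ℝ (fderiv ℝ (f ∘ D.φ p)) 0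
    (EuclideanSpace.single b 1) (EuclideanSpace.single b 1) := by
  simp only [lap, δδ hf, Finset.sum_sub_distrib, sum_aa, Finset.mul_sum, ← mul_assoc]
  rw [Finset.sum_comm]
  simp only [← Finset.sum_mul, A, N_δ, zero_mul, Finset.sum_const_zero, sub_zero]

end Disc

end Vale.Agent.P134K
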