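import Vale.Agent.P134K.Ch1
import Vale.Agent.P366Z.GradA

open MeasureTheory Metric Set Filter Topology
open scoped ContDiff RealInnerProductSpace Gradient

noncomputable section
namespace Vale.Agent.P134K

variable {m : ℕ} {M : Type} [MetricSpace M] {D : Disc m M}

theorem inner_dgrad {h : E m → ℝ} {y : E m} (hh : ContDiffAt ℝ ∞ h y) (w u : E m) :
    ⟪fderiv ℝ (∇ h) y w, u⟫ = fderiv ℝ (fderiv ℝ h) y w u := by
  have h1 := ((hh.fderiv_right (m := ∞) (by simp)).differentiableAt (by simp)).hasFDerivAt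
  have h2 := (InnerProductSpace.toDual ℝ (E m)).symm.toContinuousLinearEquiv.hasFDerivAt.comp y h1
  rw [show fderiv ℝ (∇ h) y = _ from h2.fderiv]
  exact InnerProductSpace.toDual_symm_apply

theorem inner_grad (h : E m → ℝ) (y u : E m) : ⟪∇ h y, u⟫ = fderiv ℝ h y u :=
  InnerProductSpace.toDual_symm_apply

namespace Disc

variable {f g : M → ℝ} {p : M} {i j k l : Fin (m + 1)}

theorem grad0 (D : Disc m M) (p : M) : ∇ (D.h p) 0 = 0 := by
  rw [gradient, D.d0, map_zero]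

theorem d_Nφ (D : Disc m M) (p : M) (w : E m) :
    fderiv ℝ (D.N ∘ D.φ p) 0 w = -D.L p (fderiv ℝ (∇ (D.h p)) 0 w) := by
  have g := D.sm_grad p z1
  have h1 : ContDiffAt ℝ ∞ (fun z => 1 + ‖∇ (D.h p) z‖ ^ 2) 0 :=
    contDiffAt_const.add (g.norm_sq ℝ)
  have h2 : HasFDerivAt (fun z => (√(1 + ‖∇ (D.h p) z‖ ^ 2))⁻¹)
      (fderiv ℝ (fun z => (√(1 + ‖∇ (D.h p) z‖ ^ 2))⁻¹) 0) 0 :=
    (((h1.sqrt (by positivity)).inv (by positivity)).differentiableAt (by simp)).hasFDerivAt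
  have h3 : IsLocalMax (fun z => (√(1 + ‖∇ (D.h p) z‖ ^ 2))⁻¹) 0 :=
    Eventually.of_forall fun z => inv_anti₀ (by positivity) (Real.sqrt_le_sqrt (by
      rw [grad0, norm_zero]
      nlinarith [sq_nonneg ‖∇ (D.h p) z‖]))
  rw [h3.fderiv_eq_zero] at h2
  have h4 := h2.smul (((D.L p).toContinuousLinearMap.hasFDerivAt.comp 0
    (g.differentiableAt (by simp)).hasFDerivAt).const_sub (D.N p))
  have h5 : D.N ∘ D.φ p =ᶠ[𝓝 0] _ :=
    (show ∀ᶠ z in 𝓝 (0 : E m), z ∈ ball 0 4 from isOpen_ball.mem_nhds z1).mono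
      fun z hz => D.Nφ p z hz
  rw [(h4.congr_of_eventuallyEq h5).fderiv]
  simp [grad0]

theorem A_hess : D.A k l p = -fderiv ℝ (fderiv ℝ (D.h p)) 0 (D.a p k) (D.a p l) := by
  rw [A_eq, d_Nφ, ← inner_dgrad (D.smAt_h p z1), real_inner_comm, a, a, inner_Ls,
    EuclideanSpace.inner_single_left]
  simp

theorem symm2 {F : E m → ℝ} {y : E m} (hF : ContDiffAt ℝ ∞ F y) (u w : E m) :
    fderiv ℝ (fderiv ℝ F) y u w = fderiv ℝ (fderiv ℝ F) y w u :=
  (hF.isSymmSndFDerivAt (by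
    simp only [minSmoothness_of_isRCLikeNormedField]
    exact WithTop.coe_le_coe.2 le_top)).eq u w

theorem A_symm : D.A k l p = D.A l k p := by
  rw [A_hess, A_hess, symm2 (D.smAt_h p z1)]

theorem tr_h (D : Disc m M) (p : M) : ∑ b, fderiv ℝ (fderiv ℝ (D.h p)) 0
    (EuclideanSpace.single b 1) (EuclideanSpace.single b 1) = 0 := D.mn p

theorem A_tr : ∑ k, D.A k k p = 0 := by
  simp only [A_hess, Finset.sum_neg_distrib, sum_aa, tr_h, neg_zero]

theorem N_A : ∑ k, D.N p k * D.A k l p = 0 := N_δ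

theorem A_N : ∑ l, D.N p l * D.A k l p = 0 := by
  simp only [A_symm (k := k)]
  exact N_A

theorem sum_NN (D : Disc m M) (p : M) : ∑ i, D.N p i * D.N p i = 1 := by
  rw [← D.NN p, PiLp.inner_apply]
  simp [sq]

theorem δδ_X : D.δ k (D.δ i fun x => D.X x j) p = -(D.N p i * D.A k j p + D.N p j * D.A k i p) := by
  rw [show (D.δ i fun x => D.X x j) = fun x => (if i = j then 1 else 0) - D.N x i * D.N x j from
    funext fun _ => δ_X, δ_sub (sm_const _) (sm_N.mul sm_N), δ_const, δ_mul sm_N sm_N, zero_sub]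
  rfl

theorem lap_X : D.lap (fun x => D.X x j) p = 0 := by
  simp only [lap, δδ_X, Finset.sum_neg_distrib, Finset.sum_add_distrib, N_A, ← Finset.mul_sum,
    A_tr, mul_zero, add_zero, neg_zero]

theorem Sm.ev1 (hf : D.Sm f p) : ∀ᶠ x in 𝓝 p, DifferentiableAt ℝ (f ∘ D.φ x) 0 := by
  have h1 : ∀ᶠ y in 𝓝 (D.ψ p p), ContDiffAt ℝ 1 (f ∘ D.φ p) y := by
    rw [ψ_self]
    exact (ContDiffAt.of_le hf (m := 1) (by simp)).eventually (by simp)
  filter_upwards [(D.cont_ψ p).continuousAt.eventually h1,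
    ball_mem_nhds p (show (0 : ℝ) < 2 by norm_num)] with x h2 hx
  refine (D.chg f z1 (q := p) (by rwa [D.φ0])).differentiableAt_iff.2
    (DifferentiableAt.comp 0 ?_ (D.d_T x p).differentiableAt)
  rw [Function.comp_apply, D.φ0]
  exact h2.differentiableAt one_ne_zero

/-- the maximum principle -/
theorem max_δ (h : IsLocalMax f p) : D.δ i f p = 0 := by
  have : IsLocalMax (f ∘ D.φ p) 0 := by
    refine ((D.tend_φ p).eventually h).mono fun z hz => ?_
    simpa only [Function.comp_apply, D.φ0] using hz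
  rw [δ, this.fderiv_eq_zero]
  rfl

theorem max_lap (hf : D.Sm f p) (h : IsLocalMax f p) : D.lap f p ≤ 0 := by
  rw [lap_ctr hf]
  refine Finset.sum_nonpos fun b _ => ?_
  have c : Tendsto (fun t : ℝ => (0 : E m) + t • EuclideanSpace.single b (1 : ℝ)) (𝓝 0) (𝓝 0) :=
    (show Continuous fun t : ℝ => (0 : E m) + t • EuclideanSpace.single b (1 : ℝ) by
      fun_prop).tendsto' 0 0 (by simp)
  have := (P366Z.Grad.test (h := fun _ => 0) (b := 0) (η := 0) (α := 0) (β := 0)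
    (ContDiffAt.of_le hf (m := 2) (WithTop.coe_le_coe.2 le_top)) contDiffAt_const (by
      filter_upwards [((D.tend_φ p).comp c).eventually h] with t k
      simpa [D.φ0] using k)).2
  simpa using this

theorem sum_vv (D : Disc m M) (p : M) (y : E m) (B : E m →L[ℝ] E m →L[ℝ] ℝ) :
    ∑ i, B (D.v p i y) (D.v p i y) =
      ∑ b, B (EuclideanSpace.single b 1) (EuclideanSpace.single b 1) -
        B (D.Ls p (D.N (D.φ p y))) (D.Ls p (D.N (D.φ p y))) := by
  obtain ⟨q, hq⟩ : ∃ q, q = D.φ p y := ⟨_, rfl⟩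
  obtain ⟨n, hn⟩ : ∃ n, n = D.Ls p (D.N q) := ⟨_, rfl⟩
  have h1 : ∑ i, D.N q i * B (D.a p i) n = B n n := by
    conv_rhs => enter [1, 2]; rw [hn, ← sum_a]
    simp
  have h2 : ∑ i, D.N q i * B n (D.a p i) = B n n := by
    conv_rhs => enter [2]; rw [hn, ← sum_a]
    simp
  have h3 : ∀ i, B (D.v p i y) (D.v p i y) = B (D.a p i) (D.a p i) - D.N q i * B (D.a p i) n
      - D.N q i * B n (D.a p i) + D.N q i * D.N q i * B n n := fun i => by
    simp only [v, ← hq, ← hn, map_sub, map_smul, sub_apply,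
      smul_apply, smul_eq_mul]
    ring
  simp only [h3, Finset.sum_add_distrib, Finset.sum_sub_distrib, h1, h2, ← Finset.sum_mul, sum_NN,
    sum_aa, ← hq, ← hn]
  ring

theorem lap_φ0 {y : E m} (hy : y ∈ D.V p) (hf : ContDiffAt ℝ ∞ (f ∘ D.φ p) y) :
    D.lap f (D.φ p y) = ∑ i, fderiv ℝ (fderiv ℝ (f ∘ D.φ p)) y (D.v p i y) (D.v p i y) +
      fderiv ℝ (f ∘ D.φ p) y (∑ i, fderiv ℝ (D.v p i) y (D.v p i y)) := by
  rw [map_sum, ← Finset.sum_add_distrib]
  refine Finset.sum_congr rfl fun i _ => ?_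
  have h1 := ((hf.fderiv_right (m := ∞) (by simp)).differentiableAt (by simp)).hasFDerivAt
  have h2 := ((D.sm_v p i hy.1).differentiableAt (by simp)).hasFDerivAt
  have h3 := (h1.clm_apply h2).congr_of_eventuallyEq (δ_ev hy hf)
  rw [δ_φ hy h3.differentiableAt, h3.fderiv, add_comm]
  rfl

theorem lap_lin (w : E (m + 1)) (c : ℝ) : D.lap (fun x => ⟪w, D.X x⟫ - c) p = 0 := by
  have h1 : ∀ i, D.δ i (fun x => ⟪w, D.X x⟫ - c) = fun x => w i - D.N x i * ⟪w, D.N x⟫ :=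
    fun i => funext fun x => by
      have h2 := ((innerSL ℝ w).hasFDerivAt (x := D.X x)).sub_const c
      refine (δ_amb h2.differentiableAt).trans ?_
      rw [h2.fderiv, innerSL_apply_apply, inner_sub_right, inner_smul_right,
        EuclideanSpace.inner_single_right]
      simp
  have h3 : D.Sm (fun x => ⟪w, D.N x⟫) p :=
    (innerSL ℝ w).contDiff.contDiffAt.comp 0 (D.sm_Nφ p z1)
  simp only [lap, h1, δ_sub (sm_const _) (sm_N.mul h3), δ_const, δ_mul sm_N h3, zero_sub,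
    Finset.sum_neg_distrib, Finset.sum_add_distrib, N_δ, ← Finset.mul_sum]
  rw [show ∑ k, D.δ k (fun x => D.N x k) p = 0 from A_tr]
  simp

theorem sum_dv {y : E m} (hy : y ∈ D.V p) : ∑ i, fderiv ℝ (D.v p i) y (D.v p i y) = 0 := by
  refine ext_inner_left ℝ fun u => ?_
  have h1 : (fun x => ⟪D.L p u, D.X x⟫ - ⟪D.L p u, D.X p⟫) ∘ D.φ p =ᶠ[𝓝 y] innerSL ℝ u := by
    filter_upwards [isOpen_ball.mem_nhds hy.1] with z hz
    rw [Function.comp_apply, ← inner_sub_right, real_inner_comm, ← inner_Ls, real_inner_comm]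
    exact congrArg _ (D.ψ_φ hz)
  have h2 := lap_φ0 hy ((innerSL ℝ u).contDiff.contDiffAt.congr_of_eventuallyEq h1)
  rw [lap_lin, h1.fderiv.fderiv_eq, h1.fderiv_eq,
    show fderiv ℝ (innerSL ℝ u) = fun _ => innerSL ℝ u from funext fun _ =>
      ContinuousLinearMap.fderiv _, fderiv_fun_const] at h2
  simpa [inner_sum] using h2.symm

/-- the Laplace operator in the chart at `p` -/
theorem lap_φ {y : E m} (hy : y ∈ D.V p) (hf : ContDiffAt ℝ ∞ (f ∘ D.φ p) y) :
    D.lap f (D.φ p y) = ∑ b, fderiv ℝ (fderiv ℝ (f ∘ D.φ p)) y (EuclideanSpace.single b 1)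
      (EuclideanSpace.single b 1) - fderiv ℝ (fderiv ℝ (f ∘ D.φ p)) y (∇ (D.h p) y)
        (∇ (D.h p) y) / (1 + ‖∇ (D.h p) y‖ ^ 2) := by
  rw [lap_φ0 hy hf, sum_dv hy, map_zero, add_zero, sum_vv, D.Nφ p y hy.1, map_smul, map_sub, Ls_N,
    Ls_L, zero_sub]
  simp only [map_smul, map_neg, smul_apply, neg_apply,
    smul_eq_mul]
  have : 0 < 1 + ‖∇ (D.h p) y‖ ^ 2 := by positivity
  rw [sub_right_inj, mul_neg, mul_neg, mul_neg, neg_neg, ← mul_assoc, ← mul_inv, Real.mul_self_sqrt this.le,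
    inv_mul_eq_div]

end Disc

end Vale.Agent.P134K
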