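import Mathlib

open MeasureTheory Metric Set Filter Topology
open scoped ContDiff RealInnerProductSpace Gradient

noncomputable section
namespace Vale.Agent.P134K

abbrev E (n : ℕ) := EuclideanSpace ℝ (Fin n)

/-- Uniform graph discs of a minimal immersion. -/
structure Disc (m : ℕ) (M : Type) [MetricSpace M] where
  X : M → E (m + 1)
  N : M → E (m + 1)
  L : M → E m →ₗᵢ[ℝ] E (m + 1)
  h : M → E m → ℝ
  φ : M → E m → M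
  N1 : ∀ p, ‖N p‖ = 1
  NL : ∀ p y, ⟪N p, L p y⟫ = 0
  sm : ∀ p, ContDiffOn ℝ ∞ (h p) (ball 0 4)
  h0 : ∀ p, h p 0 = 0
  d0 : ∀ p, fderiv ℝ (h p) 0 = 0
  φ0 : ∀ p, φ p 0 = p
  Xφ : ∀ p, ∀ y ∈ ball (0 : E m) 4, X (φ p y) = X p + L p y + h p y • N p
  Nφ : ∀ p, ∀ y ∈ ball (0 : E m) 4,
    N (φ p y) = (√(1 + ‖∇ (h p) y‖ ^ 2))⁻¹ • (N p - L p (∇ (h p) y))
  lip : ∀ p, ∀ y ∈ ball (0 : E m) 4, ∀ z ∈ ball (0 : E m) 4, dist (φ p y) (φ p z) ≤ 2 * ‖y - z‖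
  cov : ∀ p, ball p 2 ⊆ φ p '' ball 0 4
  Xl : ∀ p q, ‖X p - X q‖ ≤ dist p q
  mn : ∀ p, ∑ i, fderiv ℝ (fderiv ℝ (h p)) 0 (EuclideanSpace.single i 1)
    (EuclideanSpace.single i 1) = 0

end Vale.Agent.P134K
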